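import Vale.Agent.P116.Cl.Dset905
import Vale.Agent.P116.KB.OscAPI

/-!
# P116, block [7]: the node can be replaced by a part with small energy

`w' = w ∩ lev K N` for large `N`: compact, full, `K ∩ w' = K ∩ w`, strong monotonicity is inherited
and the energies (and the area) of `w' \ K` are small.
-/

open Set Filter Topology Metric Bornology MeasureTheory
open scoped ENNReal

namespace Vale.Agent.P116.AD.H942

open H906 KB

variable {K w : Set ℂ}

lemma esc_mono {A B : Set ℂ} (h : A ⊆ B) {z : ℂ} (hz : Esc B z) : Esc A z := by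
  obtain ⟨C, h1, h2, h3, h4⟩ := hz
  exact ⟨C, h1, h2, h3.mono_right h, h4⟩

lemma full_inter {A B : Set ℂ} (hA : Full A) (hB : Full B) : Full (A ∩ B) := by
  intro z hz
  by_cases h : z ∈ A
  · exact esc_mono inter_subset_right (hB z fun hb => hz ⟨h, hb⟩)
  · exact esc_mono inter_subset_left (hA z h)

lemma frontier_inter_lev (hw : IsClosed w) (hfr : Disjoint (frontier w) K) (N : ℕ) :
    Disjoint (frontier (w ∩ lev K N)) K := by
  rw [disjoint_left]
  intro z hz hzK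
  rcases (frontier_inter_subset w (lev K N)) hz with h | h
  · exact disjoint_left.1 hfr h.1 hzK
  · exact disjoint_left.1 (Cl.frontier_lev_disjoint N) h.2 hzK

lemma inter_lev_eq (N : ℕ) : K ∩ (w ∩ lev K N) = K ∩ w := by
  ext z
  constructor
  · rintro ⟨h1, h2, -⟩
    exact ⟨h1, h2⟩
  · rintro ⟨h1, h2⟩
    exact ⟨h1, h2, subset_lev N h1⟩

/-- **the small part of a node** -/
theorem small (hK : IsCompact K) (hf : Full K) (hw : IsCompact w) (hwf : Full w)
    (hfr : Disjoint (frontier w) K) {ι : Type*} [Finite ι] {u ρ : ι → ℂ → ℝ}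
    (hu : ∀ i, Hon K w (u i) (ρ i)) (hm : ∀ i, KF.SMon K w (u i)) {ε : ℝ} (hε : 0 < ε) :
    ∃ N, ∀ n ≥ N, ∀ w', w' = w ∩ lev K n → w' ⊆ w ∧ IsCompact w' ∧ Full w' ∧
      Disjoint (frontier w') K ∧ IsPreconnected w'ᶜ ∧ K ∩ w' = K ∩ w ∧ K ∩ w' ⊆ interior w' ∧
      (∀ i, Hon K w' (u i) (ρ i)) ∧ (∀ i, KF.SMon K w' (u i)) ∧
      ∀ i, ∫⁻ z in w' \ K, (ENNReal.ofReal (ρ i z ^ 2) + 1) ≤ ENNReal.ofReal ε := by
  have h1 : ∀ i, ∫⁻ z in w \ K, (ENNReal.ofReal (ρ i z ^ 2) + 1) ≠ ∞ := by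
    intro i
    rw [lintegral_add_right _ measurable_const, lintegral_const, one_mul,
      Measure.restrict_apply_univ]
    exact (ENNReal.add_lt_top.2 ⟨(hu i).en,
      (measure_mono sdiff_subset).trans_lt hw.measure_lt_top⟩).ne
  have h2 : ∀ i, ∀ᶠ n in atTop,
      ∫⁻ z in (lev K n ∩ w) \ K, (ENNReal.ofReal (ρ i z ^ 2) + 1) < ENNReal.ofReal ε := fun i =>
    (Cl.tendsto_energy hK hf hw.isClosed (h1 i)).eventually
      (gt_mem_nhds (ENNReal.ofReal_pos.2 hε))
  obtain ⟨N, hN⟩ := eventually_atTop.1 (eventually_all.2 h2)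
  refine ⟨N, fun n hn w' hw' => ?_⟩
  have hsub : w' ⊆ w := hw' ▸ inter_subset_left
  have hc : IsCompact w' := hw' ▸ hw.inter_right (isClosed_lev n)
  have hfu : Full w' := hw' ▸ full_inter hwf (full_lev n)
  have hfr' : Disjoint (frontier w') K := hw' ▸ frontier_inter_lev hw.isClosed hfr n
  have hpc : IsPreconnected w'ᶜ := hfu.isPreconnected_compl hc.isBounded
  refine ⟨hsub, hc, hfu, hfr', hpc, hw' ▸ inter_lev_eq n, ?_, fun i => (hu i).restrict hsub,
    fun i => SMon_restrict hsub hw hpc (hm i), fun i => ?_⟩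
  · rintro z ⟨hzK, hz⟩
    by_contra hcon
    exact disjoint_left.1 hfr' ⟨subset_closure hz, hcon⟩ hzK
  · rw [hw', inter_comm]
    exact (hN n hn i).le

end Vale.Agent.P116.AD.H942
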